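import Vale.Agent.P129BP.Main
import Vale.Agent.P070Z.Stmt
import Vale.Agent.P070ZC.Sip

/-!
# Hilbert spaces and operators of the statement and of the coded structures
-/

set_option linter.unusedSectionVars false

namespace Vale.Agent.P070Z37

open Vale.Agent.P323.Z Vale.Agent.P129B Vale.Agent.P129Z.S Vale.Agent.P129BP Vale.Agent.P070Z

universe v

variable {N : Type v} [ZM N]

section Fun

variable {α β : Type*} [Coded N α] [Coded N β] [Tot N α]

theorem mem_code_fun (f : α → β) [hf : Intl N f] {p : N} :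
    p ∈ code N f ↔ ∃ a, p = op (code N a) (code N (f a)) := by
  rw [code_fun, mem_code_set (intl_fun_graph.1 hf)]
  constructor
  · rintro ⟨⟨a, b⟩, h, rfl⟩
    obtain rfl : f a = b := h
    exact ⟨a, rfl⟩
  · rintro ⟨a, rfl⟩
    exact ⟨(a, f a), rfl, rfl⟩

/-- The code of an internal function is its graph. -/
theorem ap_code (f : α → β) [Intl N f] (a : α) :
    ap ZM.E (code N f) (code N a) = code N (f a) := by
  refine ap_eq' ((mem_code_fun f).2 ⟨a, rfl⟩) fun z hz => ?_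
  obtain ⟨b, h⟩ := (mem_code_fun f).1 hz
  obtain ⟨h1, rfl⟩ := op_inj.1 h
  rw [code_injT h1]

theorem isFunction_code (f : α → β) [Intl N f] {A B : N} (hA : IsCar N α A) (hB : IsCar N β B) :
    IsFunction ZM.E (code N f) A B := by
  refine isFunction_iff.2 ⟨fun p hp => ?_, fun x hx => ?_⟩
  · obtain ⟨a, rfl⟩ := (mem_code_fun f).1 hp
    exact ⟨_, _, hA.code_mem a, hB.code_mem (f a), rfl⟩
  · obtain ⟨a, rfl⟩ := hA.exT hx
    refine ⟨code N (f a), (mem_code_fun f).2 ⟨a, rfl⟩, fun z hz => ?_⟩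
    obtain ⟨b, h⟩ := (mem_code_fun f).1 hz
    obtain ⟨h1, rfl⟩ := op_inj.1 h
    rw [code_injT h1]

/-- Functions of the model with the same domain and the same values are equal. -/
theorem fun_ext {s t A B C : N} (hs : IsFunction ZM.E s A B) (ht : IsFunction ZM.E t A C)
    (h : ∀ x, x ∈ A → ap ZM.E s x = ap ZM.E t x) : s = t := by
  refine ext fun p => ⟨fun hp => ?_, fun hp => ?_⟩
  · obtain ⟨x, y, -, -, rfl⟩ := (isFunction_iff.1 hs).1 p hp
    obtain ⟨h1, -, rfl⟩ := fun_mem hs hp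
    rw [h x h1]
    exact fun_op_ap ht h1
  · obtain ⟨x, y, -, -, rfl⟩ := (isFunction_iff.1 ht).1 p hp
    obtain ⟨h1, -, rfl⟩ := fun_mem ht hp
    rw [← h x h1]
    exact fun_op_ap hs h1

/-- A function of the model is the code of an internal function. -/
theorem exists_fun_code {s A B : N} (hA : IsCar N α A) (hB : IsCar N β B)
    (h : IsFunction ZM.E s A B) : ∃ f : α → β, Intl N f ∧ code N f = s := by
  obtain ⟨f, hf, h1⟩ := exists_fun_of_fun hA hB h
  refine ⟨f, hf, fun_ext (isFunction_code f hA hB) h fun x hx => ?_⟩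
  obtain ⟨a, rfl⟩ := hA.exT hx
  rw [h1, ap_code]

theorem isSurjection_code [Tot N β] (f : α → β) [Intl N f] {A B : N} (hA : IsCar N α A)
    (hB : IsCar N β B) : IsSurjection ZM.E (code N f) A B ↔ Function.Surjective f := by
  constructor
  · rintro ⟨-, h⟩ b
    obtain ⟨x, -, h1⟩ := h _ (hB.code_mem b)
    obtain ⟨a, h2⟩ := (mem_code_fun f).1 (pairMem_iff.1 h1)
    exact ⟨a, (code_injT (op_inj.1 h2).2).symm⟩
  · intro h
    refine ⟨isFunction_code f hA hB, fun y hy => ?_⟩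
    obtain ⟨b, rfl⟩ := hB.exT hy
    obtain ⟨a, rfl⟩ := h b
    exact ⟨_, hA.code_mem a, pairMem_iff.2 ((mem_code_fun f).2 ⟨a, rfl⟩)⟩

theorem code_eq_iff {a b : α} : code N a = code N b ↔ a = b := ⟨code_injT, fun h => h ▸ rfl⟩

theorem IsCar.all {A : N} (h : IsCar N α A) {P : N → Prop} :
    (∀ x, ZM.E x A → P x) ↔ ∀ a : α, P (code N a) :=
  ⟨fun H a => H _ (h.code_mem a), fun H x hx => by
    obtain ⟨a, rfl⟩ := h.exT hx
    exact H a⟩

theorem IsCar.ex {A : N} (h : IsCar N α A) {P : N → Prop} :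
    (∃ x, ZM.E x A ∧ P x) ↔ ∃ a : α, P (code N a) :=
  ⟨fun ⟨x, hx, H⟩ => by
    obtain ⟨a, rfl⟩ := h.exT hx
    exact ⟨a, H⟩, fun ⟨a, H⟩ => ⟨_, h.code_mem a, H⟩⟩

end Fun

variable {R : Type*} [Field R] [LinearOrder R] [IsStrictOrderedRing R] [Coded N R] [RF N R]
  {K : Type*} [Field K] [Coded N K] [Tot N K] [Nm K R] {R₀ : Reals N} {K₀ : Scalars N}
  {E : Type*} [AddCommGroup E] [Module K E] [Coded N E] [Tot N E] [Nm E R]
  {F : Type*} [AddCommGroup F] [Module K F] [Coded N F] [Tot N F] [Nm F R]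
  {ipE : E → E → K} {ipF : F → F → K} {H₀ L₀ : Hilb N}

/-- `H₀` represents the space `E` with the inner product `ip`. -/
structure RepH (K : Type*) [Coded N K] [Field K] {E : Type*} [Coded N E] [AddCommGroup E]
    [Module K E] [Nm E R] (ip : E → E → K) (H₀ : Hilb N) : Prop
    extends RepX K E (nm : E → R) H₀.toSpace where
  inner : ∀ x y : E, ap2 ZM.E H₀.inner (code N x) (code N y) = code N (ip x y)

namespace RepH

theorem defIp (hH : RepH K ipE H₀) : DefF N (fun p : E × E => ipE p.1 p.2) :=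
  defF_of_code (F := fun p : E × E => ap2 ZM.E H₀.inner (code N p.1) (code N p.2))
    (fun _ _ => inferInstance) (by fun_prop) fun _ _ => hH.inner _ _

theorem isLinear (hH : RepH K ipE H₀) (hL : RepH K ipF L₀) (hK : RepK K (nm : K → R) K₀)
    (f : E → F) [Intl N f] : IsLinear ZM.E K₀ H₀ L₀ (code N f) ↔ IsLinearMap K f := by
  constructor
  · rintro ⟨-, h1, h2⟩
    refine ⟨fun x y => ?_, fun c x => ?_⟩
    · have := h1 _ _ (hH.car.code_mem x) (hH.car.code_mem y)
      rw [hH.add, ap_code, ap_code, ap_code, hL.add] at this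
      exact code_injT this
    · have := h2 _ _ (hK.car.code_mem c) (hH.car.code_mem x)
      rw [hH.smul, ap_code, ap_code, hL.smul] at this
      exact code_injT this
  · intro h
    refine ⟨isFunction_code f hH.car hL.car, fun x y hx hy => ?_, fun c x hc hx => ?_⟩
    · obtain ⟨x, rfl⟩ := hH.car.exT hx
      obtain ⟨y, rfl⟩ := hH.car.exT hy
      rw [hH.add, ap_code, ap_code, ap_code, hL.add, h.map_add]
    · obtain ⟨c, rfl⟩ := hK.car.exT hc
      obtain ⟨x, rfl⟩ := hH.car.exT hx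
      rw [hH.smul, ap_code, ap_code, hL.smul, h.map_smul]

theorem isOper (hH : RepH K ipE H₀) (hR : RepR R R₀) (hK : RepK K (nm : K → R) K₀)
    (f : E → E) [Intl N f] : IsOper ZM.E R₀ K₀ H₀ (code N f) ↔
      IsLinearMap K f ∧ ∃ C : R, ∀ x, nm (f x) ≤ C * nm x := by
  rw [IsOper, hH.isLinear hH hK, IsCar.ex hR.car]
  refine and_congr Iff.rfl (exists_congr fun C => ?_)
  rw [IsCar.all hH.car]
  simp only [ap_code, hH.norm, hR.mul, hR.le]

/-- An operator of the model is the code of an internal bounded linear function. -/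
theorem exists_of_isOper (hH : RepH K ipE H₀) (hR : RepR R R₀) (hK : RepK K (nm : K → R) K₀)
    {T : N} (h : IsOper ZM.E R₀ K₀ H₀ T) : ∃ f : E → E, Intl N f ∧ code N f = T ∧
      IsLinearMap K f ∧ ∃ C : R, ∀ x, nm (f x) ≤ C * nm x := by
  obtain ⟨f, hf, rfl⟩ := exists_fun_code hH.car hH.car h.1.1
  exact ⟨f, hf, rfl, (hH.isOper hR hK f).1 h⟩

theorem isAdd (hH : RepH K ipE H₀) (f g h : E → E) [Intl N f] [Intl N g] [Intl N h] :
    IsAdd ZM.E H₀ (code N f) (code N g) (code N h) ↔ ∀ x, h x = f x + g x := by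
  rw [IsAdd, IsCar.all hH.car]
  simp only [ap_code, hH.add, code_eq_iff]

theorem isSMul (hH : RepH K ipE H₀) (c : K) (f h : E → E) [Intl N f] [Intl N h] :
    IsSMul ZM.E H₀ (code N c) (code N f) (code N h) ↔ ∀ x, h x = c • f x := by
  rw [IsSMul, IsCar.all hH.car]
  simp only [ap_code, hH.smul, code_eq_iff]

theorem isMul (hH : RepH K ipE H₀) (f g h : E → E) [Intl N f] [Intl N g] [Intl N h] :
    IsMul ZM.E H₀ (code N f) (code N g) (code N h) ↔ ∀ x, h x = f (g x) := by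
  rw [IsMul, IsCar.all hH.car]
  simp only [ap_code, code_eq_iff]

theorem isAdj (hH : RepH K ipE H₀) (f h : E → E) [Intl N f] [Intl N h] :
    IsAdj ZM.E H₀ (code N f) (code N h) ↔ ∀ x y, ipE (h x) y = ipE x (f y) := by
  constructor
  · intro H x y
    have := H _ _ (hH.car.code_mem x) (hH.car.code_mem y)
    rw [ap_code, ap_code, hH.inner, hH.inner] at this
    exact code_injT this
  · intro H x y hx hy
    obtain ⟨x, rfl⟩ := hH.car.exT hx
    obtain ⟨y, rfl⟩ := hH.car.exT hy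
    rw [ap_code, ap_code, hH.inner, hH.inner, H]

theorem isZero (hH : RepH K ipE H₀) (f : E → E) [Intl N f] :
    (∀ x, ZM.E x H₀.car → ap ZM.E (code N f) x = H₀.zero) ↔ ∀ x, f x = 0 := by
  rw [IsCar.all hH.car]
  simp only [ap_code, hH.zero, code_eq_iff]

theorem inBall (hH : RepH K ipE H₀) (hR : RepR R R₀) {y : N} :
    InBall ZM.E R₀ H₀ y ↔ ∃ x : E, nm x ≤ 1 ∧ code N x = y := by
  constructor
  · rintro ⟨h1, h2⟩
    obtain ⟨x, rfl⟩ := hH.car.exT h1
    rw [hH.norm, hR.one, hR.le] at h2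
    exact ⟨x, h2, rfl⟩
  · rintro ⟨x, h, rfl⟩
    refine ⟨hH.car.code_mem x, ?_⟩
    rwa [hH.norm, hR.one, hR.le]

theorem closeOp (hH : RepH K ipE H₀) (hR : RepR R R₀) (e : R) (f g : E → E) [Intl N f]
    [Intl N g] : (∀ x, InBall ZM.E R₀ H₀ x → Close ZM.E R₀ H₀.toSpace (code N e)
      (ap ZM.E (code N f) x) (ap ZM.E (code N g) x)) ↔ ∀ x, nm x ≤ 1 → nm (f x - g x) < e := by
  constructor
  · intro h x hx
    have := h _ ((hH.inBall hR).2 ⟨x, hx, rfl⟩)
    rwa [ap_code, ap_code, hH.toRepX.close hR] at this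
  · intro h y hy
    obtain ⟨x, hx, rfl⟩ := (hH.inBall hR).1 hy
    rw [ap_code, ap_code, hH.toRepX.close hR]
    exact h x hx

theorem isCompactOp (hH : RepH K ipE H₀) (hR : RepR R R₀) (f : E → E) [Intl N f] :
    IsCompactOp ZM.E R₀ H₀ (code N f) ↔ ∀ e : R, 0 < e → ∃ (n : NN N) (w : NN N → E),
      Intl N w ∧ ∀ x, nm x ≤ 1 → ∃ i, i < n ∧ nm (f x - w i) < e := by
  constructor
  · intro h e he
    obtain ⟨S, h1, h2, h3⟩ := h _ (hR.pos.2 ⟨e, he, rfl⟩)
    obtain ⟨s, hs, rfl⟩ := hH.car.exists_set h2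
    obtain ⟨n, w, hw, rfl⟩ := (isFinite_code hs (0 : E)).1 h1
    refine ⟨n, w, hw, fun x hx => ?_⟩
    obtain ⟨y, h4, h5⟩ := h3 _ ((hH.inBall hR).2 ⟨x, hx, rfl⟩)
    obtain ⟨_, ⟨i, hi, rfl⟩, rfl⟩ := (mem_code_set hs).1 h4
    rw [ap_code, hH.toRepX.close hR] at h5
    exact ⟨i, hi, h5⟩
  · intro h ε hε
    obtain ⟨e, he, rfl⟩ := hR.pos.1 hε
    obtain ⟨n, w, hw, h1⟩ := h e he
    have h0 : Intl N (Set.Iio n) := intl_setOfT (P := fun i : NN N => i < n) (by fun_prop)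
    have hs : Intl N (w '' Set.Iio n) := intl_image (DefF.ofIntl w) _
    refine ⟨_, (isFinite_code hs (0 : E)).2 ⟨n, w, hw, rfl⟩, hH.car.sub_code hs, fun y hy => ?_⟩
    obtain ⟨x, hx, rfl⟩ := (hH.inBall hR).1 hy
    obtain ⟨i, hi, h2⟩ := h1 x hx
    refine ⟨_, (mem_code_set hs).2 ⟨_, ⟨i, hi, rfl⟩, rfl⟩, ?_⟩
    rwa [ap_code, hH.toRepX.close hR]

theorem isUnitary (hH : RepH K ipE H₀) (hL : RepH K ipF L₀) (hK : RepK K (nm : K → R) K₀)
    (f : E → F) [Intl N f] : IsUnitary ZM.E K₀ H₀ L₀ (code N f) ↔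
      IsLinearMap K f ∧ Function.Surjective f ∧ ∀ x y, ipF (f x) (f y) = ipE x y := by
  rw [IsUnitary, hH.isLinear hL hK, isSurjection_code f hH.car hL.car]
  refine and_congr Iff.rfl (and_congr Iff.rfl ⟨fun H x y => ?_, fun H x y hx hy => ?_⟩)
  · have := H _ _ (hH.car.code_mem x) (hH.car.code_mem y)
    rw [ap_code, ap_code, hH.inner, hL.inner] at this
    exact code_injT this
  · obtain ⟨x, rfl⟩ := hH.car.exT hx
    obtain ⟨y, rfl⟩ := hH.car.exT hy
    rw [ap_code, ap_code, hH.inner, hL.inner, H]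

end RepH

/-! ### Import and export of Hilbert spaces -/

section CC

variable [SqR R] {E : Type*} [AddCommGroup E] [Module (CC R) E] [Coded N E] [Tot N E] [Nm E R]
  {ip : E → E → CC R}

theorem conj_eq (z : CC R) : KA.conj z = ⟨z.re, -z.im⟩ :=
  KA.ext (by rw [KA.re_conj]; rfl) (by rw [KA.im_conj]; rfl)

theorem opair_code (a b : R) : opair ZM.E (code N a) (code N b) = code N (⟨a, b⟩ : CC R) :=
  opair_eq _ _

/-- The inner product of a Hilbert space of the model. -/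
theorem exists_ip (hK : RepK (CC R) (nm : CC R → R) K₀) (hX : RepX (CC R) E (nm : E → R) H₀.toSpace)
    (h : IsHilbert ZM.E R₀ K₀ H₀) : ∃ ip : E → E → CC R, RepH (CC R) ip H₀ := by
  choose ip h1 using fun x y : E =>
    hK.car.exT (ap2_mem h.inner_op (hX.car.code_mem x) (hX.car.code_mem y))
  exact ⟨ip, hX, fun x y => (h1 x y).symm⟩

theorem RepH.sip (hH : RepH (CC R) ip H₀) (hR : RepR R R₀) (hK : RepK (CC R) (nm : CC R → R) K₀)
    (h : IsHilbert ZM.E R₀ K₀ H₀) : SIP ip (nm : E → R) := by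
  have : NA R (CC R) E := ⟨hH.toRepX.nm_add hR h.banach, hH.toRepX.nm_smul hR hK h.banach,
    hH.toRepX.eq_zero hR h.banach⟩
  have hc := fun x : E => hH.car.code_mem x
  have hr := fun x : R => hR.car.code_mem x
  refine ⟨fun x y z => ?_, fun c x y => ?_, fun x y => ?_, fun x => nm_nonneg x, fun x => ?_⟩
  · have := h.inner_add _ _ _ (hc x) (hc y) (hc z)
    rw [hH.add, hH.inner, hH.inner, hH.inner, hK.add] at this
    exact code_injT this
  · have := h.inner_smul _ _ _ (hK.car.code_mem c) (hc x) (hc y)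
    rw [hH.smul, hH.inner, hH.inner, hK.mul] at this
    exact code_injT this
  · have := h.inner_conj _ _ _ _ _ (hc x) (hc y) (hr (ip x y).re) (hr (ip x y).im)
      (hr (-(ip x y).im)) (by rw [hR.add, add_neg_cancel, hR.zero])
      (by rw [hH.inner, opair_code])
    rw [hH.inner, opair_code] at this
    rw [conj_eq, code_injT this]
  · have := h.inner_self _ (hc x)
    rw [hH.inner, hH.norm, hR.mul, hR.zero, opair_code] at this
    rw [code_injT this, sq]
    rfl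

/-- A coded Hilbert space is represented by a Hilbert space of the model. -/
theorem exists_hilb {E : Type*} [AddCommGroup E] [Module (CC R) E] [Nm E R] [NA R (CC R) E]
    [Coded N E] [NS N R (CC R) E] [hc : Cpl N R E] {ip : E → E → CC R} (hR : RepR R R₀)
    (hK : RepK (CC R) (nm : CC R → R) K₀) (hs : SIP ip (nm : E → R))
    (hd : DefF N (fun p : E × E => ip p.1 p.2)) :
    ∃ H₀ : Hilb N, IsHilbert ZM.E R₀ K₀ H₀ ∧ RepH (CC R) ip H₀ := by
  obtain ⟨X₀, h1, hX⟩ := exists_space (ne := (nm : E → R)) hR hK DefF.id.nm NA.eq_zero_of_nm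
    NA.nm_smul NA.nm_add (cmp_iff.2 hc)
  have hH : RepH (CC R) ip ⟨X₀, gr N (fun p : E × E => ip p.1 p.2)⟩ :=
    ⟨hX, fun x y => ap2_gr hd x y⟩
  refine ⟨_, ⟨h1, isOp2_gr hd hX.car hX.car hK.car, fun x y z hx hy hz => ?_,
    fun c x y h0 hx hy => ?_, fun x y a b b' hx hy ha hb hb' h2 h3 => ?_, fun x hx => ?_⟩, hH⟩
  · obtain ⟨x, rfl⟩ := hX.car.exT hx
    obtain ⟨y, rfl⟩ := hX.car.exT hy
    obtain ⟨z, rfl⟩ := hX.car.exT hz
    rw [hH.add, hH.inner, hH.inner, hH.inner, hK.add, hs.add]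
  · obtain ⟨c, rfl⟩ := hK.car.exT h0
    obtain ⟨x, rfl⟩ := hX.car.exT hx
    obtain ⟨y, rfl⟩ := hX.car.exT hy
    rw [hH.smul, hH.inner, hH.inner, hK.mul, hs.smul]
  · obtain ⟨x, rfl⟩ := hX.car.exT hx
    obtain ⟨y, rfl⟩ := hX.car.exT hy
    obtain ⟨a, rfl⟩ := hR.car.exT ha
    obtain ⟨b, rfl⟩ := hR.car.exT hb
    obtain ⟨b', rfl⟩ := hR.car.exT hb'
    rw [hR.add, hR.zero] at h2
    rw [hH.inner, opair_code] at h3
    rw [hH.inner, opair_code, ← hs.conj, code_injT h3, conj_eq,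
      eq_neg_of_add_eq_zero_right (code_injT h2)]
  · obtain ⟨x, rfl⟩ := hX.car.exT hx
    rw [hH.inner, hH.norm, hR.mul, hR.zero, opair_code, hs.self, sq]
    rfl

/-- A Hilbert space of the model is represented by a coded Hilbert space. -/
theorem import_hilb (hR : RepR R R₀) (hK : RepK (CC R) (nm : CC R → R) K₀)
    (h : IsHilbert ZM.E R₀ K₀ H₀) :
    ∃ (E : Type v) (_ : AddCommGroup E) (_ : Module (CC R) E) (_ : Nm E R) (_ : NA R (CC R) E)
      (_ : Coded N E) (_ : NS N R (CC R) E) (_ : Cpl N R E) (ip : E → E → CC R),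
      SIP ip (nm : E → R) ∧ DefF N (fun p : E × E => ip p.1 p.2) ∧ RepH (CC R) ip H₀ := by
  have hb := h.banach
  have hX := XT.rep (hR := hR) (hK := hK) (h := hb)
  let _ : Nm (XT hR hK hb) R := ⟨XT.nrm⟩
  have h1 : NA R (CC R) (XT hR hK hb) := ⟨hX.nm_add hR hb, hX.nm_smul hR hK hb, hX.eq_zero hR hb⟩
  have h2 : NS N R (CC R) (XT hR hK hb) :=
    { defAdd := hX.defAdd, defSMul := hX.defSMul, defNm := ⟨hX.defNorm⟩ }
  have h3 : Cpl N R (XT hR hK hb) := cmp_iff.1 (hX.cmp hR hb)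
  obtain ⟨ip, hH⟩ := exists_ip (E := XT hR hK hb) hK hX h
  exact ⟨XT hR hK hb, _, _, _, h1, _, h2, h3, ip, hH.sip hR hK h, hH.defIp, hH⟩

end CC

end Vale.Agent.P070Z37
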