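import Vale.Agent.P129BP.Main
import Vale.Agent.P129BR.Main
import Vale.Agent.P070Z.Stmt

/-!
# The real and complex numbers exist in every model; from coded scalars to `Counter`
-/

namespace Vale.Agent.P070Z37

open Vale.Agent.P323.Z Vale.Agent.P129B Vale.Agent.P129Z.S Vale.Agent.P129BP Vale.Agent.P070Z

universe v

/-- Every model of ZFC has real and complex numbers. -/
theorem exists_scalars (N : Type v) [ZM N] :
    ∃ (R : Reals N) (K : Scalars N), IsReals ZM.E R ∧ IsComplexScalars ZM.E R K := by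
  obtain ⟨R₀, h1, h2⟩ := exists_reals (N := N) (R := RR N) RF.lub
  haveI : SqR (RR N) := RF.sqR N
  obtain ⟨K₀, h3, -⟩ := exists_complex (K := CC (RR N)) isCx (by fun_prop) h2
  exact ⟨R₀, K₀, h1, h3⟩

/-- the counterexample over every coded copy of the real numbers -/
def CodedCounter (N : Type v) [ZM N] : Prop :=
  ∀ (R : Type v) [Field R] [LinearOrder R] [IsStrictOrderedRing R] [Coded N R] [RF N R] [SqR R]
    (R₀ : Reals N) (K₀ : Scalars N), RepR R R₀ → RepK (CC R) (nm : CC R → R) K₀ →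
    ∃ (H : Hilb N) (A : N), IsHilbert ZM.E R₀ K₀ H ∧ IsCStar ZM.E R₀ K₀ H A ∧
      PropN ZM.E R₀ K₀ H A ∧ ¬ IsCompacts ZM.E R₀ K₀ H A

theorem counter_of_coded {N : Type v} [ZM N] (h : CodedCounter N) : Counter (ZM.E (N := N)) :=
  ⟨exists_scalars N, fun R₀ K₀ hR hK =>
    haveI : SqR (RT hR) := RF.sqR N
    h (RT hR) R₀ K₀ (repR_RT hR) (repK_complex isCx (repR_RT hR) hK)⟩

/-- From the class of models to arbitrary models of ZFC. -/
theorem counter_of_zm (h : ∀ (N : Type v) [ZM N], CodedCounter N) {M : Type v}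
    {E : M → M → Prop} (hE : IsZFCModel E) : Counter E :=
  @counter_of_coded M ⟨E, hE.1, hE.2⟩ (@h M ⟨E, hE.1, hE.2⟩)

end Vale.Agent.P070Z37
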